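import Crest.Agent.X212.Enr44.Defs
import Crest.Agent.X212.Top0.Mk
import Crest.Agent.X212.Gm56.Cur
import Crest.Agent.X212.Num57.Hs
import Crest.Agent.X212.Lw78.Gen

/-!
# Row 212, GEO engine, leaves ENQ, ENR (helper44): the standard cross-sections
-/

set_option autoImplicit false
set_option linter.unusedSectionVars false
set_option maxHeartbeats 400000
noncomputable section
open scoped Manifold ContDiff Topology InnerProductSpace
open MeasureTheory Set Function Filter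

namespace Crest.Agent.X212.Enr44
open An Cyf70 Sw Flo2 Geo28 Met55 Sw87.Mo Sob92
open Num57 hiding fz
open Sw.En3 (fz hol gn)
open Bor5.T (O3)
open Nd18 (YD ca)
open Int54 (oc volF)
open Line51 (iL)
open Orx52 (pr oR)
open Lab56 (M8 C8)
open Gm56 (cnY mZ Rp)
open Dr59 (Cl Ex dM df)
open End23 (lg wh Red)

variable {κ : Type} [Fintype κ] [DecidableEq κ] {μ : Type} [Fintype μ] [DecidableEq μ]

/-- the geometry of a frame -/
def yd (A : O3) (e : κ → VF A.Y.I A.Y.M) (he : ∀ y, FAt e y) : YD A.Y.I A.Y.M κ L0 :=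
  ⟨rFr e he, fun a b c d y => oc (I := IC A.Y.I) (ce e) (volF (I := IC A.Y.I) (pr A.o oR) (ce e))
    a b c d (y, 0), fun _ => 1, iL Unit, 0⟩

theorem yd_std (A : O3) (e : κ → VF A.Y.I A.Y.M) (he : ∀ y, FAt e y) (ζ : A.Y.M → F2 κ) :
    (⟨A, yd A e he, ζ⟩ : ET κ).Std := by
  have ho : ∀ a b c d x, (yd A e he).o a b c d x.1 = oc (I := IC A.Y.I) (ce e)
      (volF (I := IC A.Y.I) (pr A.o oR) (ce e)) a b c d x := fun a b c d x => by
    have h1 : Int54.fv (I := IC A.Y.I) (ce e) (x.1, 0) = Int54.fv (I := IC A.Y.I) (ce e) x :=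
      funext fun a => by cases a <;> rfl
    have h2 : pr A.o oR (x.1, 0) = pr A.o oR x := by simp only [pr, Orx52.oR_eq]
    simp only [yd, oc, Int54.cf, volF, Pi.smul_apply', Int54.nf, h1, h2]
  have hB : (yd A e he).B = Int54.base (cyl (rFr e he)) (volF (I := IC A.Y.I) (pr A.o oR) (ce e)) 1
      (iL Unit) := by
    simp only [YD.B, ho]
    rfl
  have O := Orx52.ori_pr A.ori Orx52.ori_oR
  refine ⟨⟨hB ▸ Int54.base_ok (by rw [Module.finrank_prod, A.Y.dim, Module.finrank_self])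
    (O.vol (cyl (rFr e he)).toPre).sm (O.unit_vol (cyl (rFr e he)).toPre) contMDiff_const
    (fun _ _ _ => rfl) (fun _ => one_mul _) (fun _ => by
      show LinearMap.trace ℝ _ LinearMap.id = 2
      simp) Line51.iL_sq Line51.iL_skw fun _ => (mul_one _).trans (one_mul _).symm, ?_⟩,
    fun _ => rfl, rfl, rfl, ho⟩
  have z : (yd A e he).G.a = 0 := funext fun a => by cases a <;> rfl
  exact ⟨rfl, Int54.isVol_cyl (rFr_vol _ _), ⟨fun _ _ => z ▸ contMDiffAt_const, fun _ _ => by simp [z]⟩,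
    fun _ _ _ _ => by simp [z], fun _ _ => by simp [z], fun a x => by
      rw [show (yd A e he).G.F.D a (yd A e he).B.l x = 0 from congrFun (Sob92.dv_const _) x]
      simp [z]⟩

variable {E : ET κ} {m : M8 E.A.Y.M (Option κ) (μ ⊕ μ)} {θ a : κ → E.A.Y.M → ℝ}

variable (E m θ) in
/-- the twisted canonical connection -/
def cA (k : κ) (y : E.A.Y.M) : En (μ ⊕ μ) := cnY E.D.F m k y + θ k y • (m.J * m.p y)

variable (E m θ) in
/-- the standard cross-section -/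
abbrev e0 : En3 κ L0 (μ ⊕ μ) :=
  { Y := E.A.Y, D := E.D, m := m, A := cA E m θ, h := 0, om := 0, ζ := E.ζ, f := 0, w := 1, b := 0,
    S := ∅, ψ := 0 }

variable (E) in
/-- what is used of the geometry -/
structure Gz (u : E.A.Y.M → ℂ) : Prop where
  std : E.Std
  vol : E.D.F.IsVol
  sζ : An.Sm E.A.Y.I E.ζ
  pζ : ∀ y, idx (E.D.B.sd (y, 0)) (ContinuousLinearMap.id ℝ ℝ) (E.ζ y) = E.ζ y
  clζ : ∀ χ : E.A.Y.M → ℝ, An.Sm E.A.Y.I χ →
    ∫ y, ∑ k, E.ζ y (none, some k) * E.D.F.D k χ y ∂E.D.F.μ = 0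
  gu : Gau E.A.Y.I u
  sp : ∀ a, Cl E.A.Y.I 1 univ a → ∃ (χ : E.A.Y.M → ℝ) (r : ℝ), An.Sm E.A.Y.I χ ∧
    ∀ k y, k1 E.D.F a k y = E.D.F.D k χ y + r * (star (u y) * E.D.F.D k u y).im

variable (E θ) in
/-- one-forms -/
structure Tw : Prop where
  sm : ∀ k, An.Sm E.A.Y.I (θ k)
  pr : ∀ k y, ∑ j, E.D.F.P k j y * θ j y = θ k y

theorem tw0 : Tw E 0 := ⟨fun _ => contMDiff_const, fun _ _ => by simp⟩

theorem clo_cl {lam ν : Type} [Fintype lam] [Fintype ν] [DecidableEq ν] {e : En3 κ lam ν}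
    {a : κ → e.Y.M → ℝ} (h : e.Clo a) : Cl e.Y.I 1 univ (fm1 e.D.F a) ∧ k1 e.D.F (fm1 e.D.F a) = a := by
  have k : k1 e.D.F (fm1 e.D.F a) = a := funext fun k => funext fun y => (k1_fm1 _ _ _ _).trans (h.pr k y)
  have s := fun x => smAt_fm1 e.D.F (x := x) fun k => h.sm k x
  have d : Dr59.Dg 1 univ (fm1 e.D.F a) := fun x _ => deg_fm1 _ _ x
  refine ⟨⟨fun x _ => s x, d, fun x _ => congrFun (ext_k2 e.D.F (d.dM isOpen_univ) .zero
    fun c d x => ?_) x⟩, k⟩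
  rw [k2_dM_fm1 _ fun k => h.sm k x, k, h.cl, sub_self]
  exact (zero_mul _).symm.trans ((k2_smul 0 0 c d x).symm.trans (by rw [zero_smul]))

theorem ex_fn {lam ν : Type} [Fintype lam] [Fintype ν] [DecidableEq ν] (e : En3 κ lam ν)
    {a : e.Y.M → R208.F.Ext e.Y.E} (h : Ex e.Y.I univ a) (d : Dr59.Dg 1 univ a) :
    ∃ χ, An.Sm e.Y.I χ ∧ k1 e.D.F a = fun k => e.D.F.D k χ := by
  obtain ⟨b, h1, h2, h3⟩ := h.deg d
  have s : An.Sm e.Y.I fun y => R208.F.evA _ 0 (b y) ![] := fun y => sa_e0 (h1 y trivial)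
  refine ⟨_, s, funext fun k => ?_⟩
  rw [← k1_df]
  congr 1
  funext y
  rw [← h3 y trivial, ← Dr59.dM_fn ((s y).mdifferentiableAt (by simp))]
  exact congrFun (congrArg _ (funext fun z => Dr59.eq_alg_of_deg (h2 z trivial))) y

theorem e0_ok {u : E.A.Y.M → ℂ} (hE : Gz E u) (hm : (mZ m).On (IC E.A.Y.I) (cyl E.D.F).P univ)
    (hθ : Tw E θ) : (e0 E m θ).OK := by
  have B := hE.std.ok.B
  have cb : ∀ {N : Type} [NormedAddCommGroup N] [NormedSpace ℝ N] {f : E.A.Y.M → N},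
      (An.Sm (IC E.A.Y.I) fun x : E.A.Y.M × ℝ => f x.1) → (cyl E.D.F).Cb fun x => f x.1 :=
    fun h => Cht98.Cb_fst E.D.F.toPre (Cb_of_compact (sm_slice_fst h 0))
  have ac : Gm56.AC (cyl E.D.F) (mZ m) (ca (cA E m θ)) := by
    have := (Gm56.ac_cn hm B.rk).add hm (α := ca θ) (fun a => by
      cases a
      exacts [contMDiff_const, sm_fst (hθ.sm _)]) fun a x => by
        cases a <;> simp [Fintype.sum_option, ca, show (cyl E.D.F).P = cP E.D.F.P from rfl, cP, hθ.pr]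
    rw [Gm56.cn_cyl] at this
    convert this using 1
    funext a x
    cases a <;> simp [ca, cA]
  have z : (e0 E m θ).cyl.ms = fun _ => 0 := funext fun _ => mul_zero _
  refine ⟨⟨B, hE.std.ok.G, Cht98.tame_cyl _ E.A.Y.dim.le, hm, ac.cc, ac.sk, ac.AJ,
    fun i j k l => cb (B.so i j k l), cb fun x => hm.sp x trivial, fun i => cb fun x => hm.sρ i x trivial,
    fun i => ?_, z ▸ Cb_const _, Cb_const _, fun x => by simp [z], fun x => by simp [z],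
    fun x => map_zero _, zero_le_one, fun j => j.elim0⟩, hE.vol, fun y v w => by simp,
    fun χ _ => by simp, hE.sζ, hE.pζ, hE.clζ, contDiff_const, fun j => ⟨0, fun r => by simp⟩,
    fun _ _ _ _ => by simp, ⟨1, fun _ => u, fun _ => hE.gu, fun a ha => ?_⟩, contDiff_const,
    fun _ => le_rfl, fun _ _ => rfl, isCompact_empty, contDiff_const, monotone_const⟩
  · rcases i with _ | i
    exacts [Cb_const _, cb (f := cA E m θ i) (ac.cc.sm (some i))]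
  · obtain ⟨χ, r, h1, h2⟩ := hE.sp _ (clo_cl ha).1
    rw [(clo_cl ha).2] at h2
    exact ⟨χ, fun _ => r, h1, fun k y => by simp [h2]⟩

theorem fc_t {lam ν : Type} [Fintype lam] [Fintype ν] [DecidableEq ν] {e : En3 κ lam ν} (v : e.YC)
    (x : e.Y.M × ℝ) : e.cyl.fc (fz v) x = e.cyl.fc (fz v) (x.1, 0) := by
  have w : e.cyl.W (fz v) = ca fun k y => e.A k y + v.a k y • (e.m.J * e.m.p y) := by
    funext i x
    cases i
    · simp [Bg.W, fz, ca, En3.cyl]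
    · rfl
  have d : ∀ i j, Sob92.dv (IC e.Y.I) (ce e.D.F.e i) (e.cyl.W (fz v) j) x =
      Sob92.dv (IC e.Y.I) (ce e.D.F.e i) (e.cyl.W (fz v) j) (x.1, 0) := fun i j => by
    rw [w]
    rcases j with _ | j
    · simp [ca, dv_const]
    · have := Gm56.dv_fst (e := e.D.F.e) (fun y => e.A j y + v.a j y • (e.m.J * e.m.p y)) i
      refine (congrFun this _).trans (.trans ?_ (congrFun this _).symm)
      cases i <;> rfl
  have c : ∀ i j k, cc e.D.F.c i j k x = cc e.D.F.c i j k (x.1, 0) := fun i j k => by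
    cases i <;> cases j <;> cases k <;> rfl
  have w' : ∀ i, e.cyl.W (fz v) i x = e.cyl.W (fz v) i (x.1, 0) := fun i => by
    rw [w]; cases i <;> rfl
  ext s
  simp only [Bg.fc, Wz78.curv, show e.cyl.F.e = ce e.D.F.e from rfl, show e.cyl.F.c = cc e.D.F.c from rfl,
    d, c, w']
  rfl

theorem fc_shift (v : (e0 E m 0).YC) : (e0 E m v.a).cyl.fc ⟨0, 0⟩ = (e0 E m 0).cyl.fc (fz v) := by
  have w : (e0 E m v.a).cyl.W ⟨0, 0⟩ = (e0 E m 0).cyl.W (fz v) := by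
    funext i x
    cases i <;> simp [Bg.W, fz, ca, En3.cyl, cA, Bg.jp]
  funext x
  simp only [Bg.fc, w]
  rfl

theorem ebd {T : Ty κ L0 (μ ⊕ μ)} (h : T.en.OK) : ∃ K, EBd K T := by
  have b : ∀ {f : T.en.Y.M × ℝ → En (μ ⊕ μ)}, T.en.cyl.F.Cb f → ∃ C, ∀ x, ‖f x‖ ≤ C :=
    fun ⟨_, h⟩ => ⟨_, CB_bound (h.2 0)⟩
  obtain ⟨C, h0⟩ := b h.cyl.cms
  choose D h1 using fun a => b (Cb_add (Cb_D h.cyl.cms a) (Cb_sub (Cb_comp (h.cyl.cA a) h.cyl.cms)
    (Cb_comp h.cyl.cms (h.cyl.cA a))))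
  obtain ⟨K, hK⟩ := (finite_range D).bddAbove
  exact ⟨max C K, fun x => ⟨(h0 x).trans (le_max_left _ _), fun a =>
    (h1 a x).trans ((hK ⟨a, rfl⟩).trans (le_max_right _ _))⟩⟩

theorem EBd.mono {T : Ty κ L0 (μ ⊕ μ)} {K K' : ℝ} (h : EBd K T) (k : K ≤ K') : EBd K' T :=
  fun x => ⟨(h x).1.trans k, fun a => ((h x).2 a).trans k⟩

theorem exists_m (E : ET κ) (s : E.A.L) : ∃ m, ERp E m s :=
  let ⟨n, h⟩ := Gm56.exists_end (l := Fin 6) E.A.Y.dim.le (by simp) (Gm56.fr_fAt (cyl E.D.F))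
    (Gm56.fP_ce E.D.F.e) (show Lab56.Cls (IY E.A) univ from s)
  ⟨_, n, rfl, h⟩

theorem ERp.rp {m : M8 E.A.Y.M (Option κ) ν0} {s : E.A.L} (h : ERp E m s) :
    ∃ n : C8 (E.A.Y.M × ℝ) (Option κ) μ0, mZ m = n.re ∧
      Rp (I := IC E.A.Y.I) (ce E.D.F.e) n (show Lab56.Cls (IY E.A) univ from s) := by
  obtain ⟨n, rfl, h⟩ := h
  have k := Gm56.on_inl (κ := Fin 6) h.on isOpen_univ
  refine ⟨Gm56.inl (Fin 6) (n.comp Prod.fst), ?_, h.of_ci k.1 k.2⟩
  simp only [mZ, C8.re, Gm56.inl, C8.comp]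

theorem ERp.on {m : M8 E.A.Y.M (Option κ) ν0} {s : E.A.L} (h : ERp E m s) :
    (mZ m).On (IC E.A.Y.I) (cyl E.D.F).P univ ∧ m.J = iL μ0 :=
  let ⟨_, e, k⟩ := ERp.rp h
  ⟨e ▸ Gm56.on_re (F := cyl E.D.F) k.on, congrArg M8.J e⟩

variable (E) in
/-- the classes of an end -/
abbrev ec1 (f : ℝ → ℝ) (u : E.A.Y.M → ℂ) (kd : Kd) (L : Type) [Finite L]
    (m : L → M8 E.A.Y.M (Option κ) (μ ⊕ μ)) (θ : L → κ → E.A.Y.M → ℝ) (h : L → E.A.Y.M → En (μ ⊕ μ)) :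
    EC (μ ⊕ μ) E.eg := ⟨f, u, kd, L, m, fun c => cA E (m c) (θ c), h, 0⟩

theorem std_ec {f u kd} {L : Type} [Finite L] {m : L → M8 E.A.Y.M (Option κ) (μ ⊕ μ)} {θ h} {c : L}
    (ok : (wh (e0 E (m c) (θ c)) f (h c)).OK) (J : (m c).J = iL μ) (t : Tw E (θ c)) :
    StdT ⟨⟨_, ec1 E f u kd L m θ h⟩, c⟩ := ⟨ok, rfl, J, θ c, t.sm, t.pr, rfl⟩

theorem tw_red {v : (e0 E m θ).YC} (h : Red v) : Tw E v.a :=
  ⟨Sep15.S.sm_a h.1.1, Cyl58.a_P h.1.1⟩

end Crest.Agent.X212.Enr44
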