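import Crest.Agent.X212.Sw87.MoE
import Crest.Agent.X212.Rf65.Rs

/-!
# Row 212, GEO engine, leaves ENQ, ENR (helper44): the topological inputs
-/

set_option autoImplicit false
noncomputable section
open scoped Manifold ContDiff
open Set

namespace Crest.Agent.X212.Enr44
open An Cyf70 Sw Geo28 Met55 Sw87.Mo
open Bor5.T (Q3)
open Dr59 (Cl Ex)

/-- the circle coordinate -/
def tR (R : R3) (y : R.Y.M) : Circle := (R.φ y).2

/-- the sphere coordinate -/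
def pR (R : R3) (y : R.Y.M) : Rf65.V3 := (R.φ y).1

/-- logarithms on a rational homology sphere -/
def LgQ : Prop := ∀ (A : Q3) (u : A.Y.M → ℂ), Gau A.Y.I u →
  ∃ χ : A.Y.M → ℝ, An.Sm A.Y.I χ ∧ ∀ y, u y = Complex.exp (χ y * Complex.I)

/-- logarithms on `S² × S¹` -/
def LgR : Prop := ∀ (R : R3) (v : R.Y.M → ℂ), Gau R.Y.I v → ∃ (n : ℤ) (χ : R.Y.M → ℝ),
  An.Sm R.Y.I χ ∧ ∀ y, v y = (tR R y : ℂ) ^ n * Complex.exp (χ y * Complex.I)

/-- `b₂ ≤ 1` on the cylinder -/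
def H2R : Prop := ∀ (R : R3) z g, Cl (IC R.Y.I) 2 (univ : Set (R.Y.M × ℝ)) z → ¬Ex (IC R.Y.I) univ z →
  Cl (IC R.Y.I) 2 univ g → ∃ r : ℝ, Ex (IC R.Y.I) univ (g - r • z)

/-- the product frame -/
def PrR : Prop := ∀ R : R3, ∃ (e : κ0 → VF R.Y.I R.Y.M) (he : ∀ y, FAt e y),
  (∀ j y, e (.inr j) y = 0) ∧ Rf65.PR (rFr e he) (tR R) (pR R)

/-- the round frame -/
def PsQ : Prop := ∀ A : Q3, ∃ (e : κ0 → VF A.Y.I A.Y.M) (he : ∀ y, FAt e y),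
  (∀ j y, e (.inr j) y = 0) ∧ (Nonempty (Bor5.T.Sph A.toO3) → ∀ x,
    0 < Wz78.scal (IC A.Y.I) (cyl (rFr e he)).e (cyl (rFr e he)).c (cyl (rFr e he)).Gam x)

end Crest.Agent.X212.Enr44
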