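import Crest.Agent.X212.Enr44.Bas
import Crest.Agent.X212.Es42.Flat

/-!
# Row 212, GEO engine, leaf ENQ (helper44): the end of a rational homology sphere
-/

set_option autoImplicit false
set_option linter.unusedSectionVars false
set_option maxHeartbeats 400000
noncomputable section
open scoped Manifold ContDiff Topology InnerProductSpace
open MeasureTheory Set Function Filter

namespace Crest.Agent.X212.Enr44
open An Cyf70 Sw Flo2 Geo28 Met55 Sw87.Mo Sob92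
open Num57 hiding fz
open Sw.En3 (fz)
open Bor5.T (Q3 Sph)
open End23 (wh GenStmt GenQStmt Qhs NoOld Psc)

/-- small masses keep the margin -/
theorem marg {e : En3 κ0 L0 ν0} (hp : Psc e) : ∃ ε > 0, ∀ h, (wh e 0 h).OK → (∀ y, ‖h y‖ ≤ ε) →
    ∃ σ > 0, ∀ y, σ + ‖(wh e 0 h).cyl.ms (y, 0)‖ ^ 2 ≤ Sw88.sc (wh e 0 h).cyl (y, 0) / 8 := by
  obtain ⟨σ, h1, h2⟩ := isCompact_univ.exists_forall_le' (f := fun y => Sw88.sc e.cyl (y, 0))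
    (Mp86.En.cs0 fun x => (Wz78.lc_gam _).sScal (Wz78.frm _) x).continuousOn fun y _ => hp y
  refine ⟨√(σ / 16), by positivity, fun h H hh => ⟨σ / 16, by positivity, fun y => ?_⟩⟩
  have k1 : ‖(wh e 0 h).cyl.ms (y, 0)‖ ≤ √(σ / 16) :=
    ContinuousLinearMap.opNorm_le_bound _ (Real.sqrt_nonneg _) fun x =>
      (Mp86.En.norm_ρ H (y := y) _).trans ((h y).le_of_opNorm_le (hh y) x)
  have k2 := pow_le_pow_left₀ (norm_nonneg _) k1 2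
  rw [Real.sq_sqrt (by positivity)] at k2
  have k3 : σ ≤ Sw88.sc (wh e 0 h).cyl (y, 0) := h2 y trivial
  linarith

section
variable {κ lam ν : Type} [Fintype κ] [Fintype lam] [Fintype ν] [DecidableEq ν]

theorem fc_wh (e : En3 κ lam ν) (f h c x) : (wh e f h).cyl.fc c x = e.cyl.fc c x := rfl

theorem eC_fc {e : En3 κ lam ν} (h0 : e.om = 0) (x : e.Y.M × ℝ) :
    e.cyl.eC ⟨0, 0⟩ x = e.cyl.p2 x (e.cyl.fc ⟨0, 0⟩ x) := by
  rw [Bg.eC, show (⟨0, 0⟩ : Cfg _ κ ν).Φ x = (0 : ℝ) • 0 by simp, Sw88.qd_smul,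
    show e.cyl.om x = e.om x.1 from rfl, h0]
  simp

theorem eC_zero {e : En3 κ lam ν} (h0 : e.om = 0) {x : e.Y.M × ℝ} (h : e.cyl.fc ⟨0, 0⟩ x = 0) :
    e.cyl.eC ⟨0, 0⟩ x = 0 := by rw [eC_fc h0, h, map_zero]

end

/-- **E-ENQ** -/
theorem enq (hG : GenStmt κ0 L0 ν0) (hQ : GenQStmt κ0 L0 ν0) (hl : LgQ) (hp : PsQ)
    (e₀ : En3 κ0 L0 ν0) : EnqStmt (Top0.mk0 e₀) := fun A => by
  obtain ⟨e, he, h1, h2⟩ := hp A
  let E : ET κ0 := ⟨A.toO3, yd A.toO3 e he, 0⟩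
  have one : Gau A.Y.I (1 : A.Y.M → ℂ) := ⟨contMDiff_const, fun _ => norm_one⟩
  have ex := fun a (ha : Dr59.Cl A.Y.I 1 univ a) => ex_fn (e0 (μ := μ0) E ⟨0, 0, 0⟩ 0) (A.h1 a ha) ha.dg
  have hE : Gz E 1 := ⟨yd_std _ _ _ _, rFr_vol e he, contMDiff_const, fun _ => by simp [E],
    fun _ _ => by simp [E], one, fun a ha => let ⟨χ, k1, k2⟩ := ex a ha
      ⟨χ, 0, k1, fun k y => by rw [zero_mul, add_zero]; exact congrFun (congrFun k2 k) y⟩⟩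
  have H1 : ∀ m θ h, (wh (e0 (μ := μ0) E m θ) 0 h).H1 := fun m θ h => ⟨fun a ha =>
    let ⟨χ, k1, k2⟩ := ex _ (clo_cl ha).1
    ⟨χ, k1, fun k y => congrFun (congrFun ((clo_cl ha).2.symm.trans k2) k) y⟩, hl A⟩
  have key : ∀ s : A.L, ∃ m θ h, ERp E m s ∧ Tw E θ ∧ (wh (e0 E m θ) 0 h).OK ∧ Qhs (wh (e0 E m θ) 0 h) ∧
      (∀ x, (e0 E m θ).cyl.fc ⟨0, 0⟩ x = 0) ∧ (Nonempty (Sph A.toO3) → NoOld (wh (e0 E m θ) 0 h) ∧
        ∃ σ > 0, ∀ y, σ + ‖(wh (e0 E m θ) 0 h).cyl.ms (y, 0)‖ ^ 2 ≤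
          Sw88.sc (wh (e0 E m θ) 0 h).cyl (y, 0) / 8) := fun s => by
    obtain ⟨m, hm⟩ := exists_m E s
    have o0 := e0_ok hE (ERp.on hm).1 tw0
    obtain ⟨-, ⟨v, hv⟩, -⟩ := Es42.flatStmt _ o0 (H1 m 0 0) rfl rfl
    have o1 := e0_ok hE (ERp.on hm).1 (tw_red hv)
    have f : ∀ x, (e0 E m v.a).cyl.fc ⟨0, 0⟩ x = 0 := fun x => by
      rw [fc_shift, fc_t, Lw78.Gn.flat o0 rfl rfl hv]
    by_cases k : Nonempty (Sph A.toO3)
    · have p : Psc (e0 E m v.a) := fun y => h2 k (y, 0)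
      obtain ⟨ε, ε0, H⟩ := marg p
      obtain ⟨h, k1, k2, k3, k4⟩ := hG.qp _ o1 (H1 m _ 0) rfl rfl rfl p 0 ε ε0
      exact ⟨m, _, h, hm, tw_red hv, k1, k3, f, fun _ => ⟨k4, H h k1 (CB_bound k2)⟩⟩
    · obtain ⟨h, k1, -, k3⟩ := hQ _ o1 (H1 m _ 0) rfl rfl 0 1 one_pos
      exact ⟨m, _, h, hm, tw_red hv, k1, k3, f, fun k' => (k k').elim⟩
  choose m θ h k1 k2 k3 k4 k5 k6 using key
  have := A.fin
  choose K hK using fun c : A.L => ebd (T := ⟨⟨_, ec1 E 0 1 .qhs A.L m θ h⟩, c⟩) (k3 c)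
  obtain ⟨K', hK'⟩ := (finite_range K).bddAbove
  refine ⟨⟨(E.D, E.ζ), hE.std, h1, ⟨0, .zero, fun x a a' => ?_, fun g hg => ⟨0, ?_⟩⟩,
    ec1 E 0 1 .qhs A.L m θ h, ⟨k3, one, fun v hv => ?_, fun _ => ⟨k4, rfl, rfl, rfl, fun c => H1 _ _ _⟩,
    nofun, nofun⟩, rfl, .refl _, fun c => std_ec (k3 c) (ERp.on (k1 c)).2 (k2 c), k1,
    ⟨K', fun c => EBd.mono (hK c) (hK' ⟨c, rfl⟩)⟩, fun k c => k6 c k, fun c x => ?_⟩⟩
  · simp [Int54.cf, E]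
  · rw [smul_zero, sub_zero, ← univ_prod_univ] at *
    exact A.h2.prod_convex isOpen_univ isOpen_univ convex_univ g hg
  · obtain ⟨χ, l1, l2⟩ := hl A v hv
    exact ⟨0, χ, l1, fun y => by rw [zpow_zero, one_mul]; exact l2 y⟩
  · exact eC_zero (e := wh (e0 E (m c) (θ c)) 0 (h c)) rfl ((fc_wh ..).trans (k5 c x))

end Crest.Agent.X212.Enr44
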