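import Crest.Agent.X212.Sep15.QaF
import Crest.Agent.X212.Qd40.H1
import Crest.Agent.X212.Clr59.Pr
import Crest.Agent.X212.Sep15.Av
import Crest.Agent.X212.Dr59.Lat

/-!
# Row 212, GEO engine, leaf ENR (helper44): forms on `S² × S¹ × ℝ`
-/

set_option autoImplicit false
set_option linter.unusedSectionVars false
set_option maxHeartbeats 400000
noncomputable section
open scoped Manifold ContDiff Topology InnerProductSpace
open MeasureTheory Set Function Filter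
open Crest.Agent.R208.F (Ext)

namespace Crest.Agent.X212.Enr44
open An Nd18 Cyf70 Qab60 Sep15.Qa
open Num57 hiding c1 c2 c1_add c2_add c1_smul c2_smul st Cf
open M (Mf)
open Dr59 (dM df Dg Cl Ex Cs ip pm)
open Rf65 (PR V3)
open Clr59 (nu)
open Map77 (inner_fm fm_ext)

variable {Y : Mf 3} [CompactSpace Y.M] {κ : Type} [Fintype κ] {lam : Type} [Fintype lam]
  {F : Fr Y.I Y.M κ} {D : YD Y.I Y.M κ lam} {θ : Y.M → Circle} {ϖ : Y.M → V3} {ε T : ℝ} {χ : ℝ → ℝ}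

theorem exists_cf : ∃ χ, Cf (-1) χ := by
  have e : deriv (fun t => -Real.smoothTransition t) = fun t => -Sw.bp t := funext fun _ => deriv.fun_neg
  have t : tsupport (fun t => -Sw.bp t) ⊆ Icc 0 1 := closure_minimal
    (fun s hs => by_contra fun k => hs (by simp [Pb50.bp_zero k])) isClosed_Icc
  refine ⟨fun t => -Real.smoothTransition t, Real.smoothTransition.contDiff.neg, ?_, ?_, ?_⟩ <;> rw [e]
  · exact isCompact_Icc.of_isClosed_subset (isClosed_tsupport _) t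
  · exact t.trans fun s hs => lt_of_lt_of_le (by norm_num) hs.1
  · rw [integral_neg, ← setIntegral_eq_integral_of_forall_compl_eq_zero fun p hp => Pb50.bp_zero hp,
      Sep15.S.int_bp]

theorem nu_lg (k : κ) (y : Y.M) :
    nu F θ k y = (star (θ y : ℂ) * F.D k (fun y => (θ y : ℂ)) y).im := by
  simp [nu]
  ring

theorem nu_sq (h : PR F θ ϖ) (y : Y.M) : ∑ k, nu F θ k y * nu F θ k y = 1 :=
  (h.g1 y _ _).trans (by simp; ring)

theorem c2_α (h : PR F θ ϖ) (x : Y.M × ℝ) (a b : Option κ) : c2 (cyl F) (tZ Y * aZ θ) x (a, b) =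
    a.elim (b.elim 0 fun k => nu F θ k x.1) fun k => b.elim (-nu F θ k x.1) fun _ => 0 := by
  rw [c2_mul (fo_tZ.dg x)]
  simp only [c1_tZ, c1_aZ h]
  cases a <;> cases b <;> simp [nu]

theorem c2_σ (h : PR F θ ϖ) (x : Y.M × ℝ) (a b : Option κ) : c2 (cyl F) (sZ ϖ) x (a, b) =
    if a.isSome ∧ b.isSome then c2 (cyl F) (sZ ϖ) (x.1, 0) (a, b) else 0 := by
  have e : ∀ x, c2 (cyl F) (sZ ϖ) x (a, b) = ∑ k : Fin 3, ϖ x.1 k *
      ((cyl F).D a (fun q => ϖ q.1 (k + 1)) x * (cyl F).D b (fun q => ϖ q.1 (k + 2)) x -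
        (cyl F).D b (fun q => ϖ q.1 (k + 1)) x * (cyl F).D a (fun q => ϖ q.1 (k + 2)) x) := fun x => by
    rw [show sZ ϖ = _ from aw_eq (w := fun k (q : Y.M × ℝ) => ϖ q.1 k), Fin.sum_univ_three, c2_add, c2_add,
      c2_fsmul, c2_fsmul, c2_fsmul]
    simp only [Pi.add_apply, PiLp.add_apply, PiLp.smul_apply, smul_eq_mul, Fin.sum_univ_three,
      c2_mul (Dr59.dg_df (U := univ) _ x trivial), c1_df]
  simp only [e, D_ϖ h]
  cases a <;> cases b <;> simp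

theorem two_hs (w : Y.M × ℝ → Ext (Y.E × ℝ)) (x : Y.M × ℝ) :
    (2 : ℝ) • hs D.Z D.B.o x (c2 D.Z w x) = c2 D.Z w x + st D.B.o x (c2 D.Z w x) := by
  rw [← hs_sub (F := D.Z)]
  nth_rewrite 2 [← hs_add (o := D.B.o) w x]
  module

variable (D ϖ ε) in
/-- the self-dual form `dt dθ ± area` -/
def zt (y : Y.M) : V2 (Option κ) := (2 * ε) • hs D.Z D.B.o (y, 0) (c2 D.Z (sZ ϖ) (y, 0))

theorem zt_eq (hε : St D θ ϖ ε) (y : Y.M) :
    zt D ϖ ε y = ε • c2 D.Z (sZ ϖ) (y, 0) + c2 D.Z (tZ Y * aZ θ) (y, 0) := by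
  rw [zt, mul_comm, mul_smul, two_hs, hε.2, smul_add, smul_smul, ← sq, hε.1, one_smul]

variable (hD : D.OK) (h : PR D.F θ ϖ) (hε : St D θ ϖ ε) (hχ : Cf T χ)
include h hε

theorem zt_n (y : Y.M) (k : κ) : zt D ϖ ε y (none, some k) = nu D.F θ k y := by
  rw [zt_eq hε, PiLp.add_apply, PiLp.smul_apply, c2_σ h, c2_α h]
  simp

theorem sm_zt : Sm Y.I (zt D ϖ ε) := by
  rw [funext (zt_eq hε)]
  exact ((contMDiff_const (I' := 𝓘(ℝ, ℝ)) (c := ε)).smul (sm_slice_fst (sm_c2 (F := D.Z) (fo_sZ h).sm) 0)).add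
    (sm_slice_fst (sm_c2 (F := D.Z) (fo_tZ.mul (fo_aZ h)).sm) 0)

theorem cf_z (x : Y.M × ℝ) (a b : Option κ) : Int54.cf (I := IC Y.I) (ce D.F.e) 2 (ε • sZ ϖ) ![a, b] x =
    if a.isSome ∧ b.isSome then zt D ϖ ε x.1 (a, b) else 0 := by
  have e : Int54.cf (I := IC Y.I) (ce D.F.e) 2 (ε • sZ ϖ) ![a, b] x = c2 D.Z (ε • sZ ϖ) x (a, b) :=
    congrArg (R208.F.evA _ 2 _) (funext fun i => by fin_cases i <;> rfl)
  rw [e, c2_smul, zt_eq hε, Pi.smul_apply, PiLp.smul_apply, PiLp.add_apply, c2_σ h, c2_α h]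
  cases a <;> cases b <;> simp

include hD hχ

theorem cl_nu {φ : Y.M → ℝ} (hφ : Sm Y.I φ) : ∫ y, ∑ k, nu D.F θ k y * D.F.D k φ y ∂D.F.μ = 0 := by
  have h1 := hpr_df hD h hχ (φ := fun q => φ q.1) (sm_fst hφ).contMDiffOn
  rw [hpr_eq hD h hε hχ (Dr59.dg_df _)] at h1
  have h2 : ∀ x : Y.M × ℝ, deriv χ x.2 * (ε * ⟪c1 D.Z (df (IC Y.I) fun q => φ q.1) x,
      c1 D.Z (aZ θ) x⟫_ℝ) = (∑ k, nu D.F θ k x.1 * D.F.D k φ x.1) * (ε * deriv χ x.2) := fun x => by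
    have := fun k => congrFun (D_some_fst D.F.toPre hφ k) x
    rw [inner_fm, Fintype.sum_option]
    simp only [c1_aZ h, c1_df, show ∀ k, D.Z.D (some k) (fun q => φ q.1) x = _ from this, Option.elim,
      RCLike.inner_apply, conj_trivial, nu]
    ring
  simp only [h2] at h1
  have h3 := (integral_prod_mul (μ := D.F.μ) (ν := volume) (fun y => ∑ k, nu D.F θ k y * D.F.D k φ y)
    fun t => ε * deriv χ t).symm.trans h1
  rw [integral_const_mul, hχ.int] at h3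
  exact (mul_eq_zero.1 h3).resolve_right fun e => by simpa [show ε = 0 by linarith] using hε.1

omit hD hε in
theorem cs_η : Cs (IC Y.I) 2 univ (dh Y χ * aZ θ) :=
  ⟨(Dr59.cl_df fun x _ => sm_snd hχ.sm x).mul (Qd40.cl_aZ h), hcs_dh hχ, subset_univ _⟩

theorem ip_z : ip (IC Y.I) (oZ D) (ε • sZ ϖ) (dh Y χ * aZ θ) ≠ 0 := by
  rw [Dr59.ip_smul, Dr59.ip_comm fun x _ => (fo_sZ h).dg x, ip, mul_assoc]
  have := hpr_aZ hD h hε hχ
  rw [hpr] at this
  rw [this, mul_neg, ← mul_assoc, ← sq, hε.1, one_mul]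
  exact neg_ne_zero.2 (vol_pos h).ne'

omit hε in
/-- the pairing with a static spatial form -/
theorem ip_st {f : Y.M × ℝ → Ext (Y.E × ℝ)} (hf : Dg 2 univ f) (h0 : ∀ x, c2 D.Z f x = c2 D.Z f (x.1, 0))
    (h1 : ∀ x k, c2 D.Z f x (none, some k) = 0) : ip (IC Y.I) (oZ D) f (dh Y χ * aZ θ) =
      -2 * ∫ y, ∑ k, nu D.F θ k y * hs D.Z D.B.o (y, 0) (c2 D.Z f (y, 0)) (none, some k) ∂D.F.μ := by
  have o := okZ hD
  have k : ∀ (x : Y.M × ℝ) (v : V2 (Option κ)), (∀ a b, v (a, b) = -v (b, a)) →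
      ⟪v, c2 D.Z (tZ Y * aZ θ) x⟫_ℝ = 2 * ∑ k, nu D.F θ k x.1 * v (none, some k) := fun x v hv => by
    rw [inner_fm, Fintype.sum_prod_type]
    simp [Fintype.sum_option, c2_α h, hv (some _) none, two_mul]
  have t : ∀ x : Y.M × ℝ, hs D.Z D.B.o x = hs D.Z D.B.o (x.1, 0) := fun x => by
    have : ∀ a b, D.Z.P a b x = D.Z.P a b (x.1, 0) := fun a b => by cases a <;> cases b <;> rfl
    simp only [hs, this]
    rfl
  have h2 : ∀ x : Y.M × ℝ, ⟪c2 D.Z f x, st D.B.o x (c2 D.Z (dh Y χ * aZ θ) x)⟫_ℝ = (∑ k, nu D.F θ k x.1 *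
      hs D.Z D.B.o (x.1, 0) (c2 D.Z f (x.1, 0)) (none, some k)) * (4 * deriv χ x.2) := fun x => by
    rw [dh_eq hχ.sm, smul_mul_assoc, c2_fsmul, ← st_symm o, inner_smul_right,
      eq_sub_of_add_eq' (two_hs f x).symm, inner_sub_left, real_inner_smul_left,
      k x (hs _ _ x _) (Num57.sd_SD (o.vo x) _).anti, k x (c2 _ f x) fun a b => k2_swap _ _ _ _ _, t, ← h0]
    simp only [h1]
    simp
    ring
  rw [ip, integ_mul o fun x => hf x trivial]
  simp only [h2]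
  rw [show D.Z.μ = D.F.μ.prod volume from rfl, integral_prod_mul (ν := volume) (fun y => ∑ k,
    nu D.F θ k y * hs D.Z D.B.o (y, 0) (c2 D.Z f (y, 0)) (none, some k)) fun t => 4 * deriv χ t,
    integral_const_mul, hχ.int]
  ring

omit hD hε hχ

theorem span1 {a : Y.M → Ext Y.E} (ha : Cl Y.I 1 univ a) : ∃ (φ : Y.M → ℝ) (r : ℝ), Sm Y.I φ ∧
    ∀ k y, k1 D.F a k y = D.F.D k φ y + r * nu D.F θ k y := by
  obtain ⟨r, φ, h1, h2⟩ := Qd40.h1Stmt D.F θ ϖ h (-1) _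
    (ha.pm (.of_contMDiff (J := IC Y.I) contMDiff_fst (mapsTo_univ _ _)))
  have m : ∀ y, (y, (0 : ℝ)) ∈ hZ Y (-1) := fun y => ⟨trivial, by simp⟩
  have s := fun y => h1.contMDiffAt ((op_hZ _).mem_nhds (m y))
  refine ⟨fun y => φ (y, 0), r, fun y => (s y).comp y (contMDiffAt_id.prodMk contMDiffAt_const),
    fun k y => ?_⟩
  have e : k1 D.F a k y = c1 D.Z (pm (IC Y.I) Y.I Prod.fst a) (y, 0) (some k) := by
    simp only [c1, k1, e1, Dr59.pm_apply, Dr59.mf_fst, R208.F.evA_pb]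
    exact congrArg _ (funext fun i => by fin_cases i; rfl)
  have e' : c1 D.Z (pm (IC Y.I) Y.I Prod.fst a) (y, 0) = c1 D.Z (r • aZ θ + df (IC Y.I) φ) (y, 0) := by
    simp only [c1, k1, h2 (m y)]
  rw [e, e', c1_add, c1_smul, Pi.add_apply, Pi.smul_apply, PiLp.add_apply, PiLp.smul_apply, c1_aZ h, c1_df,
    add_comm]
  exact congrArg (· + _) (D_some_at D.F.toPre ((s y).mdifferentiableAt (by simp)) k)

omit h in
/-- the restriction of a primitive to a slice -/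
theorem slice {b : Y.M × ℝ → Ext (Y.E × ℝ)} (hb : Dr59.Sm (IC Y.I) univ b) (hd : Dg 1 univ b) :
    ∃ a : κ → Y.M → ℝ, (∀ k, Sm Y.I (a k)) ∧ (∀ k y, ∑ j, F.P k j y * a j y = a k y) ∧ ∀ i j y,
      k2 (cyl F) (dM (IC Y.I) b) (some i) (some j) (y, 0) =
        F.D i (a j) y - F.D j (a i) y - ∑ k, F.c i j k y * a k y := by
  have s := fun a x => sa_k1 (cyl F) (hb x trivial) a
  refine ⟨fun k y => k1 (cyl F) b (some k) (y, 0), fun k => sm_slice_fst (s _) 0, fun k y => ?_,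
    fun i j y => ?_⟩
  · simpa [Fintype.sum_option, show (cyl F).P = cP F.P from rfl, cP] using k1_P (cyl F) b (some k) (y, 0)
  · rw [k2_dM _ (hb _ trivial) (.of_forall fun x => hd x trivial), Fintype.sum_option]
    exact congrArg₂ _ (congrArg₂ _ (D_some F.toPre (s _) i _) (D_some F.toPre (s _) j _))
      ((congrArg (· + _) (zero_mul _)).trans (zero_add _))

end Crest.Agent.X212.Enr44
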