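import Crest.Agent.X212.Enr44.Enq
import Crest.Agent.X212.Enr44.Prd
import Crest.Agent.X212.Sm25.Dsc

/-!
# Row 212, GEO engine, leaf ENR (helper44): the ends of `S² × S¹`
-/

set_option autoImplicit false
set_option linter.unusedSectionVars false
set_option maxHeartbeats 400000
noncomputable section
open scoped Manifold ContDiff Topology InnerProductSpace
open MeasureTheory Set Function Filter

namespace Crest.Agent.X212.Enr44
open An Cyf70 Sw Flo2 Geo28 Met55 Sw87.Mo Sob92 Sep15.Qa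
open Qab60 (c2 Cf aZ sZ oZ)
open Sw.En3 (fz hol gn)
open Bor5.T (Cur)
open Lab56 (M8 Cls)
open Dr59 (Cl Ex dM ip)
open Rf65 (PR V3)
open End23 (wh GenStmt TorX DeadX Psc Red per lg)

variable {κ : Type} [Fintype κ] [DecidableEq κ] {E : ET κ} {m : M8 E.A.Y.M (Option κ) ν0} {s : E.A.L}

/-- the class on the product -/
abbrev cz (s : E.A.L) : Cls (IC E.A.Y.I) (univ : Set (E.A.Y.M × ℝ)) := s

theorem fz0 {e : En3 κ L0 ν0} : fz (⟨0, 0⟩ : e.YC) = ⟨0, 0⟩ :=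
  Cfg.ext (funext fun a => by cases a <;> rfl) rfl

theorem flux_wh (e : En3 κ L0 ν0) (f h) : Sw88.flux (wh e f h) = Sw88.flux e := rfl

theorem zz_wh (E : ET κ) (m m' : M8 E.A.Y.M (Option κ) ν0) (f h) :
    Sw88.zz (wh (e0 E m 0) f h) = Sw88.zz (e0 E m' 0) := rfl

theorem clo_wh {e : En3 κ L0 ν0} (f h) {a} (k : e.Clo a) : (wh e f h).Clo a := { k with }

theorem per_wh (e : En3 κ L0 ν0) (f h) {u} (hu : Gau e.Y.I u) :
    per e u = -hol (En3.YC.act (e := wh e f h) u ⟨0, 0⟩) := by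
  have := Lw78.Gn.hol_lg (e := wh e f h) (v := Dec47.ay (e := wh e f h) u ⟨0, 0⟩) (u := u) (r := -1) fun k y =>
    (Dec47.ay_a (e := wh e f h) hu.1 _ k y).trans ((zero_sub _).trans (neg_one_mul _).symm)
  exact (neg_neg _).symm.trans (congrArg _ ((neg_one_mul _).symm.trans this.symm))

theorem ebd0 {T : Ty κ L0 ν0} (h : T.en.h = 0) : EBd 0 T := fun x => by
  have z : T.en.cyl.ms = fun _ => 0 := funext fun x => by simp [En3.cyl, h]
  simp [z, Pre.D_def, dv_const]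

section cur
variable (hm : ERp E m s) (ok : (e0 E m 0).OK)
include hm ok

theorem cur_v {v : (e0 E m 0).YC} (hv : (e0 E m 0).cyl.Adm (fz v)) :
    ∃ f, Cur (cz s) f ∧ Cl (IC E.A.Y.I) 2 univ f ∧
      ∀ x, c2 E.D.Z f x = (2 : ℝ) • (e0 E m 0).cyl.fc (fz v) x := by
  obtain ⟨n, e, k⟩ := ERp.rp hm
  obtain ⟨f, h1, h2⟩ := Gm56.cur_fc (X := (e0 E m 0).Z) ok.cyl e k hv.sa hv.pa
  refine ⟨f, h1, ?_, fun x => Map77.fm_ext (h2 x)⟩
  obtain ⟨_, -, _, k, rfl⟩ := h1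
  exact k.cl_F isOpen_univ

theorem tor_of_red {v : (e0 E m 0).YC} (hv : Red v) : Tor s := by
  obtain ⟨f, h1, h2, h3⟩ := cur_v hm ok hv.1.1
  exact ⟨f, h1, Dr59.ex_of_zero fun x _ => Qab60.eq_zero_of_c2 (F := E.D.Z) (h2.dg x trivial) (by
    rw [h3, fc_t, Lw78.Gn.flat ok rfl rfl hv, smul_zero])⟩

theorem red_of_tor (t : Tor s) : ∃ v : (e0 E m 0).YC, Red v := by
  have a0 : (e0 E m 0).cyl.Adm (fz ⟨0, 0⟩) :=
    Cyl58.adm_fz (fun _ => contMDiff_const) contMDiff_const tw0.pr fun _ => map_zero _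
  obtain ⟨f, h1, h2, h3⟩ := cur_v hm ok a0
  obtain ⟨f₀, t1, t2⟩ : ∃ f, Cur (cz s) f ∧ Ex (IC E.A.Y.I) univ f := t
  obtain ⟨b₀, k1, -, k2⟩ := Gm56.cur_ex t1 h1
  obtain ⟨b, b1, b2, b3⟩ := Ex.deg (k2 ▸ Ex.add t2 (Dr59.ex_dM k1)) h2.dg
  obtain ⟨a, a1, a2, a3⟩ := slice (F := E.D.F) b1 b2
  rw [show dM _ b = f from funext fun x => b3 x trivial] at a3
  have av : (e0 E m 0).cyl.Adm (fz ⟨fun k y => -1 / 2 * a k y, 0⟩) :=
    Cyl58.adm_fz (fun k => contMDiff_const.mul (a1 k)) contMDiff_const (fun k y => by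
      simp only [mul_left_comm _ (-1 / 2 : ℝ), ← Finset.mul_sum]
      exact congrArg _ (a2 k y)) fun _ => map_zero _
  have z : ∀ y, (e0 E m 0).cyl.fc (fz ⟨fun k y => -1 / 2 * a k y, 0⟩) (y, 0) = 0 := fun y => by
    ext ⟨i, j⟩
    rcases i with _ | i
    · exact (Mp86.En.fc_none _ _).1
    rcases j with _ | j
    · exact (Mp86.En.fc_none _ _).2
    have e1 := congrArg (· (some i, some j)) (h3 (y, 0))
    have d : ∀ i j, Sob92.dv E.A.Y.I (E.D.F.e i) (fun y => -1 / 2 * a j y) y = -1 / 2 * E.D.F.D i (a j) y :=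
      fun i j => congrFun (E.D.F.D_smul (a1 j) _ i) y
    rw [fz0] at e1
    rw [Cyl58.fc_fz ok av]
    have e2 := (a3 i j y).symm.trans e1
    simp only [PiLp.add_apply, Cyl58.up2, Wz78.d1, d, smul_eq_mul, PiLp.smul_apply,
      mul_left_comm _ (-1 / 2 : ℝ), ← Finset.mul_sum, PiLp.zero_apply] at e2 ⊢
    linarith
  refine ⟨_, ⟨av, fun k y => ?_, Lw78.Gn.gr_0 rfl⟩, rfl⟩
  have q : (e0 E m 0).cyl.qd (y, 0) 0 0 = 0 := by rw [← zero_smul ℝ (0 : Eu ν0), Sw88.qd_smul]; simp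
  simp only [En3.gr, Bg.eC, z]
  simp [fz, q, show (e0 E m 0).cyl.om (y, 0) = 0 from rfl]

end cur

variable {θ : E.A.Y.M → Circle} {ϖ : E.A.Y.M → V3} {ε T : ℝ} {χ : ℝ → ℝ} (hs : E.Std)
  (h : PR E.D.F θ ϖ) (hε : St E.D θ ϖ ε) (hχ : Cf T χ) (hζ : E.ζ = zt E.D ϖ ε)
include h

theorem gau_θ : Gau E.A.Y.I fun y => (θ y : ℂ) :=
  ⟨Line51.contMDiff_coe.comp (sm_θ h), fun _ => Circle.norm_coe _⟩

theorem psc_R : Psc (e0 E m 0) := fun y =>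
  have p := (Clr59.psc h).cyl
  p.pos.trans_le (p.sc (y, 0))

include hε hζ

theorem z_lg (y : E.A.Y.M) (k : κ) : E.ζ y (none, some k) = 1 * lg (e0 E m 0) (fun y => (θ y : ℂ)) k y := by
  rw [hζ, zt_n h hε, nu_lg, one_mul]
  rfl

theorem per_ne : per (e0 E m 0) (fun y => (θ y : ℂ)) ≠ 0 := by
  have : ∀ y, ∑ k, E.ζ y (none, some k) * lg (e0 E m 0) (fun y => (θ y : ℂ)) k y = 1 := fun y => by
    rw [← nu_sq h y, hζ]
    exact Finset.sum_congr rfl fun k _ => congrArg₂ _ (zt_n h hε y k) (nu_lg k y).symm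
  simp only [per, hol, this, integral_const, smul_eq_mul]
  exact mul_ne_zero (vol_pos h).ne' (by norm_num)

theorem clo_z : (e0 E m 0).Clo fun k y => E.ζ y (none, some k) := by
  simp only [z_lg (m := m) h hε hζ]
  exact Lw78.Gn.clo_lg (e := e0 E m 0) (gau_θ h) 1

include hs hχ

theorem gz (hv : E.D.F.IsVol) : Gz E fun y => (θ y : ℂ) :=
  ⟨hs, hv, hζ ▸ sm_zt h hε, fun y => by
    rw [hζ, zt, map_smul]
    exact congrArg _ (Qab60.hs_idem (okZ hs.ok) _ _), fun φ hφ => by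
    simp only [hζ, zt_n h hε]
    exact cl_nu hs.ok h hε hχ hφ, gau_θ h, fun a ha =>
    let ⟨φ, r, k1, k2⟩ := span1 h ha
    ⟨φ, r, k1, fun k y => by rw [k2, nu_lg]⟩⟩

theorem ip_flux (hm : ERp E m s) (ok : (e0 E m 0).OK) : ∃ f, Cur (cz s) f ∧
    ip (IC E.A.Y.I) (oZ E.D) f (dh E.A.Y χ * aZ θ) = -4 * Sw88.flux (e0 E m 0) := by
  obtain ⟨f, h1, h2, h3⟩ := cur_v hm ok (v := ⟨0, 0⟩)
    (Cyl58.adm_fz (fun _ => contMDiff_const) contMDiff_const tw0.pr fun _ => map_zero _)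
  refine ⟨f, h1, ?_⟩
  rw [ip_st hs.ok h hχ h2.dg (fun x => by rw [h3, h3, fc_t]) fun x k => by
    rw [h3, PiLp.smul_apply, (Mp86.En.fc_none _ _).1, smul_zero], Sw88.flux]
  simp only [h3, map_smul, PiLp.smul_apply, smul_eq_mul, mul_left_comm _ (2 : ℝ), ← Finset.mul_sum,
    integral_const_mul, eC_fc (e := e0 E m 0) rfl, hζ, zt_n h hε, fz0]
  exact (mul_assoc _ _ _).symm.trans (congrArg₂ _ (by norm_num) rfl)

theorem fin_R (h2 : ∀ g, Cl (IC E.A.Y.I) 2 univ g → ∃ r : ℝ, Ex (IC E.A.Y.I) univ (g - r • ε • sZ ϖ))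
    (C : ℝ) : {s : E.A.L | ∃ f, Cur (cz s) f ∧
      |ip (IC E.A.Y.I) (oZ E.D) f (dh E.A.Y χ * aZ θ)| ≤ C}.Finite := by
  have o := Qab60.ori (okZ hs.ok)
  have η := cs_η h hχ
  have z := (((fo_sZ h).cl (d_sZ h)).smul ε)
  refine (Sm25.finite_inj (ι := Unit) (K := univ ×ˢ {0}) (O' := univ ×ˢ {0}) o (fun _ => η) (fun c hc k => ?_)
    (isCompact_univ.prod isCompact_singleton) isOpen_univ
    ⟨Prod.snd, continuousOn_snd, fun _ _ _ h => h, fun _ h => h, fun _ _ => rfl⟩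
    ⟨fun p => (p.2.1, p.1 * p.2.2), by fun_prop, fun _ _ _ _ => trivial,
      fun x _ => ⟨trivial, zero_mul _⟩, fun x _ => by simp⟩ (subset_univ _) Subset.rfl C).subset ?_
  · obtain ⟨r, hr⟩ := h2 c hc
    have := η.ip_coh o hc.sm (z.smul r).sm hr
    rw [k (), Dr59.ip_smul, eq_comm, mul_eq_zero] at this
    simpa [this.resolve_right (ip_z hs.ok h hε hχ)] using hr
  · rintro d ⟨_, ⟨D, h1, a, h2, rfl⟩, h3⟩
    exact ⟨D, h1, a, h2, fun _ => h3⟩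

omit h hε hζ hs hχ

/-- **E-ENR** -/
theorem enr (hG : GenStmt κ0 L0 ν0) (hl : LgR) (h2 : H2R) (hp : PrR) (e₀ : En3 κ0 L0 ν0) :
    EnrStmt (Top0.mk0 e₀) := fun R c₀ t0 uq => by
  classical
  obtain ⟨D, hv, s0, h, hs⟩ : ∃ D : Nd18.YD R.Y.I R.Y.M κ0 L0, D.F.IsVol ∧ (∀ j y, D.F.e (.inr j) y = 0) ∧
      PR D.F (tR R) (pR R) ∧ ∀ ζ, (⟨R.toO3, D, ζ⟩ : ET κ0).Std :=
    let ⟨e, he, s0, h⟩ := hp R
    ⟨yd R.toO3 e he, rFr_vol e he, s0, h, yd_std _ _ _⟩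
  obtain ⟨ε, hε⟩ := exists_st (hs 0).ok h
  obtain ⟨χ, hχ⟩ := exists_cf
  obtain ⟨ζ, hζ⟩ : ∃ ζ, ζ = zt D (pR R) ε := ⟨_, rfl⟩
  let E : ET κ0 := ⟨R.toO3, D, ζ⟩
  let u : E.A.Y.M → ℂ := fun y => (tR R y : ℂ)
  replace hs : E.Std := hs ζ
  have hE : Gz E u := gz (E := E) hs h hε hχ hζ hv
  have z := ((fo_sZ h).cl (d_sZ h)).smul ε
  have H2 := fun g => h2 R _ g z fun k =>
    ip_z (D := E.D) hs.ok h hε hχ ((cs_η h hχ).ip_ex (Qab60.ori (okZ hs.ok)) k)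
  choose m hm using exists_m E
  have ok := fun s => e0_ok hE (ERp.on (hm s)).1 tw0
  have pe := fun s => per_ne (E := E) (m := m s) h hε hζ
  have cz := fun s => clo_z (E := E) (m := m s) h hε hζ
  obtain ⟨f₀, h₀, k1, -, -, k2⟩ := hG.tor (e0 E (m c₀) 0) u (ok c₀) rfl rfl ⟨hE.gu, hl R⟩ (pe c₀) (psc_R (E := E) h) rfl rfl
    (cz c₀) (red_of_tor (hm c₀) (ok c₀) t0) 0 1 one_pos
  have key : ∀ s, ∃ f h kd, (wh (e0 E (m s) 0) f h).OK ∧ (s = c₀ → kd = Kd.tor ∧ TorX (wh (e0 E (m s) 0) f h) u) ∧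
      (s ≠ c₀ → kd = .dead ∧ f = 0 ∧ h = 0) := fun s => by
    by_cases k : s = c₀
    · subst k
      exact ⟨f₀, h₀, _, k1, fun _ => ⟨rfl, k2⟩, fun k => (k rfl).elim⟩
    · exact ⟨0, 0, _, ok s, fun k' => (k k').elim, fun _ => ⟨rfl, rfl, rfl⟩⟩
  choose f g kd l1 l2 l3 using key
  let ec := fun s => ec1 E (f s) u (kd s) Unit (fun _ => m s) (fun _ => 0) fun _ => g s
  obtain ⟨K, hK⟩ := ebd (T := ⟨⟨_, ec c₀⟩, ()⟩) (l1 c₀)
  have K0 : 0 ≤ K := (norm_nonneg _).trans (hK (Classical.arbitrary _, 0)).1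
  refine ⟨⟨(D, ζ), hs, s0, ⟨_, z, fun x a b => (cf_z h hε x a b).trans (by rw [← hζ]), H2⟩, ec, fun _ => (), fun s => ⟨fun _ => l1 s, hE.gu,
    hl R, fun k => ?_, fun k => ?_, fun k => ?_⟩, (l2 _ rfl).1, fun s k => (l3 s k).1,
    fun s => std_ec (l1 s) (ERp.on (hm s)).2 tw0, hm, ⟨K, fun s => ?_⟩, fun s k => pe s ?_, clo_wh (f c₀) (g c₀) (cz c₀),
    fun C => ?_⟩⟩
  · by_cases k' : s = c₀
    exacts [(nomatch k.symm.trans (l2 s k').1), nomatch k.symm.trans (l3 s k').1]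
  · exact ⟨fun _ => (l2 s (by_contra fun k' => nomatch k.symm.trans (l3 s k').1)).2,
      inferInstanceAs (Subsingleton Unit)⟩
  · have k' : s ≠ c₀ := fun k' => nomatch k.symm.trans (l2 s k').1
    obtain ⟨-, e1, e2⟩ := l3 s k'
    refine ⟨fun _ => ?_, e1, rfl⟩
    show DeadX (wh (e0 E (m s) 0) (f s) (g s))
    rw [e1, e2]
    exact hG.dead (e0 E (m s) 0) (ok s) rfl rfl (psc_R (E := E) (m := m s) h) rfl rfl rfl fun v hv =>
      k' (uq s (tor_of_red (hm s) (ok s) hv))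
  · by_cases k : s = c₀
    exacts [k ▸ hK, EBd.mono (ebd0 (T := ⟨⟨_, ec s⟩, ()⟩) (l3 s k).2.2) K0]
  · exact (per_wh (e0 E (m s) 0) (f s) (g s) hE.gu).trans (neg_eq_zero.2 k)
  · refine (((fin_R (E := E) hs h hε hχ hζ H2 (4 * √(Sw88.zz (e0 E (m c₀) 0) * C / 8))).insert c₀).image
      ec).subset ?_
    rintro _ ⟨⟨s, rfl⟩, k⟩
    refine mem_image_of_mem _ (or_iff_not_imp_left.2 fun k' => ?_)
    obtain ⟨e0', e1, e2⟩ := l3 s k'
    obtain ⟨_, v, v1, v2, v3⟩ := k.resolve_left fun k => k e0'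
    obtain ⟨c, c1, c2⟩ := ip_flux (E := E) hs h hε hχ hζ (hm s) (ok s)
    have b := (Wp42.fluxStmt _ (l1 s) (clo_wh _ _ (cz s))).1 v v1 v2
    have z0 : 0 ≤ Sw88.zz (e0 E (m c₀) 0) := integral_nonneg fun y => by positivity
    refine ⟨c, c1, ?_⟩
    rw [c2, abs_mul, show |(-4 : ℝ)| = 4 by norm_num]
    refine mul_le_mul_of_nonneg_left (Real.abs_le_sqrt ?_) (by norm_num)
    rw [show deriv (wh (e0 E (m s) 0) (f s) (g s)).f = 0 by simp [e1], Pi.zero_apply, zero_mul, add_zero,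
      flux_wh, zz_wh E _ (m c₀)] at b
    have := b.trans (mul_le_mul_of_nonneg_left v3 z0)
    linarith

end Crest.Agent.X212.Enr44
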